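import Vale.Agent.P352G75.Lt

/-!
# P352G50, row REC: the new theory
-/

set_option linter.all false

open MeasureTheory Filter Topology
open scoped SchwartzMap ComplexConjugate ContDiff

namespace Vale.Agent.P352X.EG.NG

open Vale.Agent.P352X.EB

open Vale.Agent.P352 Vale.Agent.P352.GF Vale.Agent.P352.BW Vale.Agent.P352.H246
open UniformSpace (Completion)

noncomputable section

variable {D : Type*} [NormedAddCommGroup D] [InnerProductSpace ℂ D] {c : Cg D} [Nd c] {Λ : Type*}
  {x : Lt c Λ}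

namespace RECr

theorem ud (v : CV x) {s : ℝ} {L : Ix → V} (hs : 0 < s) (hL : IsLor L) (a : V) (w : x.Dn) :
    (x.Ud s L a w : Completion D) = Ug c.Q s L a w := by
  have h : Ug c.Q s L a w ∈ x.Dn := v.mem ⟨⟨s, L, a, hs, hL⟩, false⟩ w w.2
  rw [Lt.Ud, dif_pos h]

theorem o_sum (f : FS x) (a : Λ) (g : Fn) {n : ℕ} (w : Fin n → x.Dn) :
    x.o a g (∑ i, w i) = ∑ i, x.o a g (w i) :=
  map_sum (AddMonoidHom.mk' (x.o a g) (f.add a g)) w _

theorem fs_one {P : Λ → Prop} {a : Λ} (h : P a) : x.Fs P (x.o a) :=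
  ⟨1, fun _ => a, fun _ => h, by simp⟩

theorem tra (v : CV x) (a : Λ) (y : V) {f : Fn} (hf : IsTest f) (w : x.Dn) :
    (x.o a f (x.Ud 1 GF.one y w) : Completion D) =
      Ug c.Q 1 GF.one y (x.o a (fun z => f (sim 1 GF.one y z)) w) := by
  have := v.cov a ⟨⟨1, GF.one, y, one_pos, H496.isLor_one⟩, false⟩ 1 (fun _ => 1) (fun _ => a) f w _
    (fun g hg => by
      rw [Fin.sum_univ_one, map_one, one_smul]
      exact x.tra (x.dag a) y g hg) hf (ud v one_pos H496.isLor_one y w)
  rwa [Fin.sum_univ_one, one_smul] at this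

theorem gd (s : SG c) (v : CV x) (w : x.Dn) : (x.Gd w : Completion D) = c.Γ w := by
  have h := v.mem (Sh.gm c true) w w.2
  rw [(s.gm true).1] at h
  rw [Lt.Gd, dif_pos (show c.Γ w ∈ x.Dn from h)]

theorem gg (s : SG c) (z : Completion D) : c.Γ (c.Γ z) = z := DFunLike.congr_fun s.g2 z

theorem par (s : SG c) (v : CV x) (a : Λ) {f : Fn} (hf : IsTest f) (w : x.Dn) :
    (x.o a f (x.Gd w) : Completion D) = sg (x.p a) • c.Γ (x.o a f w) := by
  have e : ∀ g, (Sh.gm c true).pull g = g := fun g => funext fun y => congrArg g ((s.gm true).2 y)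
  have := v.cov a (Sh.gm c true) 1 (fun _ => sg (x.p a)) (fun _ => a) f w (x.Gd w)
    (fun g hg => by
      rw [Fin.sum_univ_one, e, (s.gm true).1]
      show _ = _ • c.Γ _
      rw [x.par _ g hg, x.pdag]
      cases x.p a <;> simp [sg]) hf (by rw [gd s v, (s.gm true).1]; rfl)
  rwa [Fin.sum_univ_one, e, (s.gm true).1] at this

/-- the part of parity `e` -/
def prt (e : Bool) {n : ℕ} (b : Fin n → Λ) : Fld x.Dn := fun f w =>
  ∑ i with x.p (b i) = e, x.o (b i) f w

theorem prt_fs {P : Λ → Prop} (e : Bool) {n : ℕ} {b : Fin n → Λ} (hb : ∀ i, P (b i)) :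
    x.Fs P (prt e b) := by
  let S := Finset.univ.filter fun i => x.p (b i) = e
  refine ⟨S.card, fun j => b (S.equivFin.symm j), fun _ => hb _, ?_⟩
  funext f w
  rw [prt, ← Finset.sum_coe_sort]
  exact (S.equivFin.symm.sum_comp fun i => x.o (b i) f w).symm

theorem prt_par (s : SG c) (v : CV x) (e : Bool) {n : ℕ} (b : Fin n → Λ) {f : Fn} (hf : IsTest f)
    (w : x.Dn) : prt e b f (x.Gd w) = sg e • x.Gd (prt e b f w) := Subtype.ext <| by
  simp only [prt, Submodule.coe_sum, Submodule.coe_smul, gd s v, map_sum, Finset.smul_sum]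
  refine Finset.sum_congr rfl fun i hi => ?_
  rw [par s v _ hf, (Finset.mem_filter.1 hi).2]

theorem split (e : Bool) {n : ℕ} (b : Fin n → Λ) (f : Fn) (w : x.Dn) :
    ∑ i, x.o (b i) f w = prt e b f w + prt (!e) b f w := by
  rw [← Finset.sum_filter_add_sum_filter_not _ fun i => x.p (b i) = e]
  simp only [prt, Bool.eq_not]

theorem pure (s : SG c) (v : CV x) (e : Bool) {n : ℕ} (b : Fin n → Λ) {f : Fn} (hf : IsTest f)
    (w : x.Dn) (h : ∑ i, x.o (b i) f (x.Gd w) = sg e • x.Gd (∑ i, x.o (b i) f w)) :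
    ∑ i, x.o (b i) f w = prt e b f w := by
  rw [split e, split e, prt_par s v _ _ hf, prt_par s v _ _ hf] at h
  have h1 := congrArg (fun z : x.Dn => c.Γ z) h
  simp only [Submodule.coe_add, Submodule.coe_smul, gd s v, map_add, map_smul, gg s, smul_add,
    add_right_inj] at h1
  have h2 : (prt (!e) b f w : Completion D) = 0 := by
    have : (sg (!e) - sg e) • (prt (!e) b f w : Completion D) = 0 := by rw [sub_smul, h1, sub_self]
    refine (smul_eq_zero.1 this).resolve_left ?_
    cases e <;> norm_num [sg]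
  rw [split e, show prt (!e) b f w = 0 from Subtype.ext h2, add_zero]

theorem comm (f : FS x) {n m : ℕ} (b : Fin n → Λ) (b' : Fin m → Λ) (S : Finset (Fin n))
    (S' : Finset (Fin m)) (z : ℂ) (h : ∀ i ∈ S, ∀ j ∈ S', x.sn (b i) (b' j) = z) {g k : Fn}
    (hg : IsTest g) (hk : IsTest k) (hs : Sep g k) (w : x.Dn) :
    ∑ i ∈ S, x.o (b i) g (∑ j ∈ S', x.o (b' j) k w) =
      z • ∑ j ∈ S', x.o (b' j) k (∑ i ∈ S, x.o (b i) g w) := by
  have e : ∀ a g {n} (S : Finset (Fin n)) (w : Fin n → x.Dn), x.o a g (∑ i ∈ S, w i) =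
      ∑ i ∈ S, x.o a g (w i) := fun a g _ S w =>
    map_sum (AddMonoidHom.mk' (x.o a g) (f.add a g)) w _
  simp only [e, Finset.smul_sum]
  rw [Finset.sum_comm]
  exact Finset.sum_congr rfl fun j hj => Finset.sum_congr rfl fun i hi => by
    rw [f.loc _ _ g k w hg hk hs, h i hi j hj]

theorem extD {A B : Completion D →L[ℂ] Completion D} (h : ∀ w : D, A w = B w) (z : Completion D) :
    A z = B z :=
  Completion.induction_on z (isClosed_eq A.continuous B.continuous) h

end RECr

open RECr in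
theorem rec_row (t : E0 c) (f : FS x) (v : CV x) : REC x := fun P hP hc => by
  have s := t.sg
  let Q' : Theory x.Dn :=
    { vac := ⟨c.Om, f.vac⟩
      fld := x.Fs P
      bose := fun B => x.Fs P B ∧ ∀ f v, IsTest f → B f (x.Gd v) = x.Gd (B f v)
      U := x.Ud
      norm_vac := (Completion.norm_coe c.Q.vac).trans c.Q.norm_vac
      cyclic := fun S h0 h => hc S (fun w hw => by rwa [show w = ⟨c.Om, f.vac⟩ from Subtype.ext hw])
        fun a g w ha => h _ g w (fs_one ha)
      lin := by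
        rintro _ g k z w ⟨n, b, -, rfl⟩ hg hk
        simp only [f.lin _ g k z w hg hk, Finset.sum_add_distrib, Finset.smul_sum]
      cont := by
        rintro _ w ⟨n, b, -, rfl⟩
        exact continuous_finset_sum _ fun i _ => f.cont _ w
      adj := by
        rintro _ ⟨n, b, hb, rfl⟩
        refine ⟨_, ⟨n, fun i => x.dag (b i), fun i => hP _ (hb i), rfl⟩, fun g w w' hg => ?_⟩
        simp only [sum_inner, inner_sum, f.herm _ g w w' hg]
      bose_fld := fun _ h => h.1
      loc := by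
        rintro _ _ g k w ⟨⟨n, b, -, rfl⟩, h⟩ ⟨m, b', -, rfl⟩ hg hk hs
        have e : ∀ w, ∑ i, x.o (b i) g w = prt false b g w := fun w =>
          pure s v false b hg w ((h g w hg).trans (one_smul _ _).symm)
        show ∑ i, x.o (b i) g _ = ∑ j, x.o (b' j) k (∑ i, x.o (b i) g w)
        rw [e, e]
        exact (comm f b b' _ _ 1 (fun i hi j _ => by
          rw [Lt.sn, (Finset.mem_filter.1 hi).2]; rfl) hg hk hs w).trans (one_smul _ _)
      U_inner := fun r L a w w' hs hL => by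
        rw [Submodule.coe_inner, Submodule.coe_inner, ud v hs hL, ud v hs hL]
        exact ContinuousLinearMap.inner_map_map_of_mem_unitary
          (s.uni ⟨⟨r, L, a, hs, hL⟩, false⟩) _ _
      U_vac := fun r L a hs hL =>
        Subtype.ext ((ud v hs hL a _).trans (s.vac ⟨⟨r, L, a, hs, hL⟩, false⟩).1)
      transl := by
        rintro _ a g w ⟨n, b, -, rfl⟩ hg
        refine Subtype.ext ?_
        simp only [ud v one_pos H496.isLor_one, Submodule.coe_sum, map_sum, tra v _ a hg]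
      spectrum := fun w => by
        obtain ⟨ν, h1, h2, h3⟩ := s.spec w
        exact ⟨ν, h1, h2, fun a => by
          rw [Submodule.coe_inner, ud v one_pos H496.isLor_one]
          exact h3 a⟩ }
  refine ⟨Q', rfl, rfl, fun _ => Iff.rfl, fun _ => Iff.rfl, fun w => Subtype.ext ?_,
    fun w w' => ?_, fun B g w h hg => h.2 g w hg, ?_, ?_, fun r L a w hs hL => Subtype.ext ?_,
    fun r L a r' L' a' hs hs' hL hL' => ?_⟩
  · rw [gd s v, gd s v, gg s]
  · rw [Submodule.coe_inner, Submodule.coe_inner, gd s v, gd s v, ← inner_star, s.gs]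
  · rintro _ ⟨n, b, hb, rfl⟩
    exact ⟨prt false b, prt true b, ⟨prt_fs _ hb, fun g w hg => (prt_par s v _ b hg w).trans
      (one_smul _ _)⟩, ⟨prt_fs _ hb, fun g w hg => (prt_par s v _ b hg w).trans (neg_one_smul ℂ _)⟩,
      fun g w _ => split false b g w⟩
  · rintro _ _ g k w ⟨⟨n, b, -, rfl⟩, h⟩ ⟨⟨m, b', -, rfl⟩, h'⟩ hg hk hs
    have e : ∀ w, ∑ i, x.o (b i) g w = prt true b g w := fun w =>
      pure s v true b hg w ((h g w hg).trans (neg_one_smul ℂ _).symm)
    have e' : ∀ w, ∑ i, x.o (b' i) k w = prt true b' k w := fun w =>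
      pure s v true b' hk w ((h' k w hk).trans (neg_one_smul ℂ _).symm)
    show ∑ i, x.o (b i) g (∑ j, x.o (b' j) k w) = -∑ j, x.o (b' j) k (∑ i, x.o (b i) g w)
    rw [e, e, e', e']
    exact (comm f b b' _ _ (-1) (fun i hi j hj => by
      rw [Lt.sn, (Finset.mem_filter.1 hi).2, (Finset.mem_filter.1 hj).2]; rfl) hg hk hs w).trans
        (neg_one_smul ℂ _)
  · show (x.Ud r L a _ : Completion D) = x.Gd (x.Ud r L a w)
    rw [ud v hs hL, gd s v, gd s v, ud v hs hL]
    exact (DFunLike.congr_fun (s.gU ⟨⟨r, L, a, hs, hL⟩, false⟩) w.1).symm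
  · have hs2 := mul_pos hs hs'
    have hL2 := ue_lor hL hL'
    refine (c.hN.mul r L a r' L' a' hs hs' hL hL').imp (fun h w => Subtype.ext ?_)
      fun h => ⟨h.1, h.2.1, fun w => Subtype.ext ?_⟩
    · show (x.Ud r L a (x.Ud r' L' a' w) : Completion D) = x.Ud _ _ _ w
      rw [ud v hs hL, ud v hs' hL', ud v hs2 hL2]
      refine extD (A := Ug c.Q r L a * Ug c.Q r' L' a') (fun u => ?_) _
      rw [ContinuousLinearMap.mul_apply, s.coe _ _ _ _ hs' hL', s.coe _ _ _ _ hs hL, h,
        s.coe _ _ _ _ hs2 hL2]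
    · show (x.Ud r L a (x.Ud r' L' a' w) : Completion D) = x.Gd (x.Ud _ _ _ w)
      rw [gd s v, ud v hs hL, ud v hs' hL', ud v hs2 hL2]
      refine extD (A := Ug c.Q r L a * Ug c.Q r' L' a') (B := c.Γ * _) (fun u => ?_) _
      rw [ContinuousLinearMap.mul_apply, s.coe _ _ _ _ hs' hL', s.coe _ _ _ _ hs hL, h.2.2,
        ContinuousLinearMap.mul_apply, s.coe _ _ _ _ hs2 hL2, c.hN.ext]

end

end Vale.Agent.P352X.EG.NG
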